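import Crest.Agent.X212.Lvf3.Reg

/-!
# Row 212, layer T, LEVF (helper3), part 2: PL bumps, PL approximation, `lev : LevStmt`
-/

set_option autoImplicit false

open Set Metric Topology Filter Crest.Agent.R096.Ce_537 Crest.Agent.X212.Prd34
  Crest.Agent.X212.Lev33 Crest.Agent.X212.Lad50

namespace Crest.Agent.X212.Lvf3

/-- **PL bump functions** -/
theorem exists_bump {O K : Set V} (hO : IsOpen O) (hK : IsCompact K) (hKO : K ⊆ O) :
    ∃ (K' N : Set V) (lam : V → ℝ), IsCompact K' ∧ K' ⊆ O ∧ IsOpen N ∧ K ⊆ N ∧ PLOn lam univ ∧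
      (∀ y, 0 ≤ lam y ∧ lam y ≤ 1) ∧ (∀ y, y ∉ K' → lam y = 0) ∧ ∀ y ∈ N, lam y = 1 := by
  refine hK.induction_on (p := fun K => ∃ (K' N : Set V) (lam : V → ℝ), IsCompact K' ∧ K' ⊆ O ∧
    IsOpen N ∧ K ⊆ N ∧ PLOn lam univ ∧ (∀ y, 0 ≤ lam y ∧ lam y ≤ 1) ∧
      (∀ y, y ∉ K' → lam y = 0) ∧ ∀ y ∈ N, lam y = 1) ?_ ?_ ?_ ?_
  · exact ⟨∅, ∅, fun _ => 0, isCompact_empty, empty_subset _, isOpen_empty, Subset.rfl,
      plOn_const _ _, fun _ => ⟨le_rfl, zero_le_one⟩, fun _ _ => rfl, fun _ h => absurd h id⟩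
  · rintro s t hst ⟨K', N, lam, h1, h2, h3, h4, h5⟩
    exact ⟨K', N, lam, h1, h2, h3, hst.trans h4, h5⟩
  · rintro s t ⟨K', N, lam, h1, h2, h3, h4, h5, h6, h7, h8⟩
      ⟨K'', N', lam', k1, k2, k3, k4, k5, k6, k7, k8⟩
    refine ⟨K' ∪ K'', N ∪ N', fun y => max (lam y) (lam' y), h1.union k1, union_subset h2 k2,
      h3.union k3, union_subset_union h4 k4, pl_max h5 k5,
      fun y => ⟨le_max_of_le_left (h6 y).1, max_le (h6 y).2 (k6 y).2⟩, fun y hy => ?_, ?_⟩
    · show max (lam y) (lam' y) = 0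
      rw [h7 y fun h => hy (Or.inl h), k7 y fun h => hy (Or.inr h), max_self]
    · rintro y (hy | hy)
      · show max (lam y) (lam' y) = 1
        rw [h8 y hy]; exact max_eq_left (k6 y).2
      · show max (lam y) (lam' y) = 1
        rw [k8 y hy]; exact max_eq_right (h6 y).2
  · intro x hx
    obtain ⟨r, hr, hb⟩ := Metric.nhds_basis_closedBall.mem_iff.1 (hO.mem_nhds (hKO hx))
    refine ⟨ball x (r / 2), mem_nhdsWithin_of_mem_nhds (ball_mem_nhds x (half_pos hr)),
      closedBall x r, ball x (r / 2), fun y => max 0 (min 1 (2 - 2 / r * ‖y - x‖)),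
      isCompact_closedBall x r, hb, isOpen_ball, Subset.rfl,
      pl_max (plOn_const _ _) (pl_min (plOn_const _ _) (pl_sub (plOn_const _ _)
        (pl_mul _ (pl_norm (pl_sub (plOn_id _) (plOn_const _ _)))))),
      fun y => ⟨le_max_left _ _, max_le zero_le_one (min_le_left _ _)⟩, fun y hy => ?_,
      fun y hy => ?_⟩
    · rw [mem_closedBall, dist_eq_norm, not_le] at hy
      refine max_eq_left ((min_le_right _ _).trans ?_)
      have : 2 / r * r ≤ 2 / r * ‖y - x‖ := mul_le_mul_of_nonneg_left hy.le (by positivity)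
      rw [div_mul_cancel₀ _ hr.ne'] at this
      linarith
    · rw [mem_ball, dist_eq_norm] at hy
      have : 2 / r * ‖y - x‖ ≤ 2 / r * (r / 2) := mul_le_mul_of_nonneg_left hy.le (by positivity)
      have e : 2 / r * (r / 2) = 1 := by field_simp
      show max 0 (min 1 (2 - 2 / r * ‖y - x‖)) = 1
      rw [min_eq_left (by linarith), max_eq_right zero_le_one]

/-- **PL approximation** on a compact set -/
theorem exists_approx {K : Set V} (hK : IsCompact K) {w : V → ℝ} (hw : ContinuousOn w K) {e : ℝ}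
    (he : 0 < e) : ∃ v : V → ℝ, PLOn v univ ∧ ∀ y ∈ K, |v y - w y| < e := by
  have : CompactSpace K := isCompact_iff_compactSpace.1 hK
  let L : Set C(K, ℝ) := {f | ∃ v : V → ℝ, PLOn v univ ∧ ∀ y : K, f y = v y}
  have mk : ∀ v : V → ℝ, PLOn v univ → ∃ f ∈ L, ∀ y : K, f y = v y := fun v hv =>
    ⟨⟨fun y => v y, (continuousOn_univ.1 hv.1).comp continuous_subtype_val⟩, ⟨v, hv, fun _ => rfl⟩,
      fun _ => rfl⟩
  have hL : closure L = ⊤ := by
    refine ContinuousMap.sublattice_closure_eq_top L ?_ ?_ ?_ ?_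
    · obtain ⟨f, hf, -⟩ := mk _ (plOn_const 0 univ)
      exact ⟨f, hf⟩
    · rintro f ⟨v, hv, e1⟩ g ⟨v', hv', e2⟩
      exact ⟨_, pl_min hv hv', fun y => by rw [ContinuousMap.inf_apply, e1, e2]⟩
    · rintro f ⟨v, hv, e1⟩ g ⟨v', hv', e2⟩
      exact ⟨_, pl_max hv hv', fun y => by rw [ContinuousMap.sup_apply, e1, e2]⟩
    · intro c x y
      by_cases hxy : x = y
      · obtain ⟨f, hf, e1⟩ := mk _ (plOn_const (c x) univ)
        exact ⟨f, hf, e1 x, by rw [e1 y, hxy]⟩
      · obtain ⟨i, hi⟩ : ∃ i, (x : V) i ≠ (y : V) i := by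
          by_contra h
          push Not at h
          exact hxy (Subtype.ext (by ext j; exact h j))
        obtain ⟨f, hf, e1⟩ := mk (fun z => c x + (c y - c x) / ((y : V) i - (x : V) i) *
          (z i - (x : V) i)) (pl_add (plOn_const _ _) (pl_mul _ (pl_sub (pl_coord i _)
            (plOn_const _ _))))
        refine ⟨f, hf, by rw [e1 x]; simp, ?_⟩
        rw [e1 y, div_mul_cancel₀ _ (sub_ne_zero.2 hi.symm)]
        ring
  let W : C(K, ℝ) := ⟨fun y => w y, continuousOn_iff_continuous_domRestrict.1 hw⟩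
  have hW : W ∈ closure L := by rw [hL]; trivial
  obtain ⟨f, ⟨v, hv, e1⟩, hd⟩ := Metric.mem_closure_iff.1 hW e he
  refine ⟨v, hv, fun y hy => ?_⟩
  have := (ContinuousMap.dist_apply_le_dist (f := W) (g := f) ⟨y, hy⟩).trans_lt hd
  rw [e1, Real.dist_eq, abs_sub_comm] at this
  exact this

/-- making a function PL near a compact set, rel the complement of a larger one -/
theorem exists_mod {U W O K : Set V} {w : V → ℝ} (hO : IsOpen O) (hOU : O ⊆ U)
    (hK : IsCompact K) (hKO : K ⊆ O) (hw : ContinuousOn w U) (pw : LocPL w W) {e : ℝ}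
    (he : 0 < e) : ∃ (K' N : Set V) (u : V → ℝ), IsCompact K' ∧ K' ⊆ O ∧ K ⊆ N ∧ N ⊆ K' ∧
      ContinuousOn u U ∧ LocPL u (N ∪ W) ∧ (∀ y, y ∉ K' → u y = w y) ∧
      ∀ y, |u y - w y| ≤ e := by
  obtain ⟨K', N, lam, h1, h2, h3, h4, h5, h6, h7, h8⟩ := exists_bump hO hK hKO
  obtain ⟨v, hv, hvw⟩ := exists_approx h1 (hw.mono (h2.trans hOU)) he
  have hNK : N ⊆ K' := by
    intro y hy
    by_contra h
    exact zero_ne_one ((h7 y h).symm.trans (h8 y hy))
  have cl : Continuous lam := continuousOn_univ.1 h5.1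
  have cv : Continuous v := continuousOn_univ.1 hv.1
  refine ⟨K', N, fun y => max (w y - e * lam y) (min (v y) (w y + e * lam y)), h1, h2, h4, hNK,
    ?_, ?_, fun y hy => ?_, fun y => ?_⟩
  · exact (hw.sub (by fun_prop)).sup (cv.continuousOn.inf (hw.add (by fun_prop)))
  · refine locPL_of_nhds ?_
    rintro x (hx | hx)
    · refine ⟨N, h3.mem_nhds hx, (hv.mono (subset_univ _)).congr fun y hy => ?_⟩
      have := abs_lt.1 (hvw y (hNK hy))
      show max (w y - e * lam y) (min (v y) (w y + e * lam y)) = v y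
      rw [h8 y hy, min_eq_left (by linarith), max_eq_right (by linarith)]
    · obtain ⟨r, hr, hp⟩ := pw x hx
      have k := pl_mul e (h5.mono (subset_univ (ball x r)))
      exact ⟨ball x r, ball_mem_nhds x hr,
        pl_max (pl_sub hp k) (pl_min (hv.mono (subset_univ _)) (pl_add hp k))⟩
  · show max (w y - e * lam y) (min (v y) (w y + e * lam y)) = w y
    rw [h7 y hy, mul_zero, sub_zero, add_zero, max_eq_left (min_le_right _ _)]
  · have k1 : 0 ≤ e * lam y := mul_nonneg he.le (h6 y).1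
    have k2 : e * lam y ≤ e := by nlinarith [(h6 y).2]
    have k3 := le_max_left (w y - e * lam y) (min (v y) (w y + e * lam y))
    have k4 : max (w y - e * lam y) (min (v y) (w y + e * lam y)) ≤ w y + e * lam y :=
      max_le (by linarith) (min_le_right _ _)
    rw [abs_le]
    constructor <;> linarith

/-- **(LEV)** -/
theorem lev : LevStmt := by
  intro U W O K w μ η hU hW hWU hO hOU hK hKO hη hw hμ pw hWK hμ1 hμ01 hfl
  obtain ⟨K', N, u, h1, h2, h3, h4, cu, pu, h5, h6⟩ :=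
    exists_mod hO hOU hK hKO hw pw (show 0 < η / 4 by positivity)
  obtain ⟨T, hT, hreg⟩ := exists_bad pu
  obtain ⟨t, htT, ht⟩ := (hT.dense_compl ℝ).exists_between (show -(η / 2) < η / 2 by linarith)
  have ht' : |t| < η / 2 := abs_lt.2 ht
  have tμ : ∀ x ∈ U, |t * μ x| < η / 2 := by
    intro x hx
    rw [abs_mul, abs_of_nonneg (hμ01 x hx).1]
    nlinarith [abs_nonneg t, (hμ01 x hx).2]
  have cd : ContinuousOn (fun y => u y - t * μ y) U := cu.sub (continuousOn_const.mul hμ)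
  refine ⟨{y | y ∈ U ∧ t * μ y ≤ u y}, {y | y ∈ U ∧ u y ≤ t * μ y}, K', t,
    ⟨hU, ?_, ?_, ?_, ?_⟩, h1, h2, by linarith, fun x hx hxK => ?_, ?_, ?_⟩
  · ext y
    constructor
    · rintro (h | h) <;> exact h.1
    · intro h
      exact (le_total (t * μ y) (u y)).imp (fun k => ⟨h, k⟩) fun k => ⟨h, k⟩
  · convert cd.isOpen_inter_preimage hU (isOpen_Iio (a := (0 : ℝ))) using 1
    ext y
    simp only [Set.mem_sdiff, mem_ofPred_eq, mem_inter_iff, mem_preimage, mem_Iio, not_and, not_le,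
      sub_neg]
    exact ⟨fun h => ⟨h.1, h.2 h.1⟩, fun h => ⟨h.1, fun _ => h.2⟩⟩
  · convert cd.isOpen_inter_preimage hU (isOpen_Ioi (a := (0 : ℝ))) using 1
    ext y
    simp only [Set.mem_sdiff, mem_ofPred_eq, mem_inter_iff, mem_preimage, mem_Ioi, not_and, not_le,
      sub_pos]
    exact ⟨fun h => ⟨h.1, h.2 h.1⟩, fun h => ⟨h.1, fun _ => h.2⟩⟩
  · rintro x ⟨⟨hx, k1⟩, -, k2⟩
    have e : u x = t * μ x := le_antisymm k2 k1
    have k3 := abs_le.1 (h6 x)
    have k4 := abs_lt.1 (tμ x hx)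
    have hxW : x ∈ W ∪ K := hWK x hx (abs_le.2 ⟨by linarith, by linarith⟩)
    by_cases hxK : x ∈ K'
    · have e' : u x = t := by rw [e, hμ1 x (h2 hxK), mul_one]
      have := hreg x (hxW.symm.imp (fun h => h3 h) id) (by rw [e']; exact htT)
      rw [e'] at this
      refine fl_congr this ?_ ?_ <;> filter_upwards [hO.mem_nhds (h2 hxK)] with y hy <;>
        simp [hμ1 y hy, hOU hy]
    · have := hfl t (by linarith) x (hxW.resolve_right fun h => hxK (h4 (h3 h)))
        (by rw [← h5 x hxK, e])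
      refine fl_congr this ?_ ?_ <;>
        filter_upwards [h1.isClosed.isOpen_compl.mem_nhds hxK] with y hy <;> simp [h5 y hy]
  · simp [h5 x hxK, hx]
  · rintro x ⟨hx, k⟩
    have k3 := abs_le.1 (h6 x)
    have k4 := abs_lt.1 (tμ x hx)
    linarith
  · rintro x ⟨hx, k⟩
    have k3 := abs_le.1 (h6 x)
    have k4 := abs_lt.1 (tμ x hx)
    linarith

end Crest.Agent.X212.Lvf3
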