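import Crest.Agent.X212.Lev33.St
import Crest.Agent.X212.Lad50.PL

/-!
# Row 212, layer T, LEVF (helper3), part 1: regular levels of PL functions are flat

`fl_of_chart`, `fl_congr` (locality of `Fl`), `fl_of_shear`, `exists_bad`: off a countable set of
values every level of a locally PL function is a flat two-sided surface.
-/

set_option autoImplicit false

open Set Metric Topology Filter Crest.Agent.R096.Ce_537 Crest.Agent.X212.Prd34
  Crest.Agent.X212.Lev33 Crest.Agent.X212.Lad50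

namespace Crest.Agent.X212.Lvf3

/-- flatness from an explicit chart -/
theorem fl_of_chart {A B N : Set V} {x : V} {f g : V → V} (hf : PLOn f (cube 3)) (hg : PLOn g N)
    (hm : MapsTo f (cube 3) N) (li : ∀ p ∈ cube 3, g (f p) = p) (h0 : f 0 = x)
    (ri : ∀ᶠ y in 𝓝 x, g y ∈ cube 3 ∧ f (g y) = y)
    (hA : ∀ p ∈ cube 3, f p ∈ A ↔ 0 ≤ p 2) (hB : ∀ p ∈ cube 3, f p ∈ B ↔ p 2 ≤ 0) :
    Fl A B x := by
  refine ⟨f '' cube 3, ⟨f, g, hf, hg.mono hm.image_subset, fun p hp => ⟨p, hp, rfl⟩, ?_, li, ?_⟩,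
    h0, ?_, ?_, ?_⟩
  · rintro _ ⟨p, hp, rfl⟩
    rw [li p hp]; exact hp
  · rintro _ ⟨p, hp, rfl⟩
    rw [li p hp]
  · filter_upwards [ri] with y hy
    exact ⟨g y, hy.1, hy.2⟩
  · ext y
    constructor
    · rintro ⟨⟨p, hp, rfl⟩, h⟩
      exact ⟨p, ⟨hp, (hA p hp).1 h⟩, rfl⟩
    · rintro ⟨p, ⟨hp, h⟩, rfl⟩
      exact ⟨⟨p, hp, rfl⟩, (hA p hp).2 h⟩
  · ext y
    constructor
    · rintro ⟨⟨p, hp, rfl⟩, h⟩
      exact ⟨p, ⟨hp, (hB p hp).1 h⟩, rfl⟩
    · rintro ⟨p, ⟨hp, h⟩, rfl⟩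
      exact ⟨⟨p, hp, rfl⟩, (hB p hp).2 h⟩

/-- reading a side in a chart -/
theorem mem_iff_of_chart {C A H : Set V} (e : PLEquiv (cube 3) C)
    (eA : C ∩ A = e.f '' (cube 3 ∩ H)) {q : V} (hq : q ∈ cube 3) : e.f q ∈ A ↔ q ∈ H := by
  constructor
  · intro h
    have : e.f q ∈ C ∩ A := ⟨e.mf hq, h⟩
    rw [eA] at this
    obtain ⟨p, hp, hpq⟩ := this
    rw [← e.injOn hp.1 hq hpq]; exact hp.2
  · intro h
    have : e.f q ∈ C ∩ A := by rw [eA]; exact ⟨q, ⟨hq, h⟩, rfl⟩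
    exact this.2

/-- **locality of `Fl`** -/
theorem fl_congr {A B A' B' : Set V} {x : V} (h : Fl A B x)
    (hA : ∀ᶠ y in 𝓝 x, (y ∈ A' ↔ y ∈ A)) (hB : ∀ᶠ y in 𝓝 x, (y ∈ B' ↔ y ∈ B)) :
    Fl A' B' x := by
  obtain ⟨C, e, h0, hC, eA, eB⟩ := h
  have z : (0 : V) ∈ cube 3 := mem_closedBall_self zero_le_one
  have c0 : ContinuousAt e.f 0 := e.pf.1.continuousAt (closedBall_mem_nhds 0 one_pos)
  have t0 : Tendsto e.f (𝓝 0) (𝓝 x) := h0 ▸ c0
  obtain ⟨ε, hε, hb⟩ := Metric.nhds_basis_closedBall.mem_iff.1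
    (inter_mem (closedBall_mem_nhds (0 : V) one_pos) (t0 (hA.and hB)))
  have sm : ∀ p ∈ cube 3, ε • p ∈ closedBall (0 : V) ε := by
    intro p hp
    rw [mem_closedBall_zero_iff] at hp ⊢
    rw [norm_smul, Real.norm_eq_abs, abs_of_pos hε]
    nlinarith
  have g0 : e.g x = 0 := by rw [← h0, e.li 0 z]
  have c1 : Tendsto e.g (𝓝 x) (𝓝 0) := g0 ▸ e.pg.1.continuousAt hC
  refine fl_of_chart (N := C) (f := fun p => e.f (ε • p)) (g := fun y => ε⁻¹ • e.g y)
    (e.pf.comp (pl_smul ε (plOn_id _)) fun p hp => (hb (sm p hp)).1) (pl_smul _ e.pg)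
    (fun p hp => e.mf (hb (sm p hp)).1) (fun p hp => ?_) (by simpa using h0) ?_
    (fun p hp => ?_) (fun p hp => ?_)
  · rw [e.li _ (hb (sm p hp)).1, smul_smul, inv_mul_cancel₀ hε.ne', one_smul]
  · filter_upwards [hC, c1 (closedBall_mem_nhds 0 hε)] with y h1 h2
    refine ⟨?_, by rw [smul_smul, mul_inv_cancel₀ hε.ne', one_smul, e.ri y h1]⟩
    have h3 : ‖e.g y‖ ≤ ε := mem_closedBall_zero_iff.1 h2
    rw [mem_closedBall_zero_iff, norm_smul, Real.norm_eq_abs, abs_of_pos (inv_pos.2 hε),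
      inv_mul_le_iff₀ hε]
    linarith
  · rw [(hb (sm p hp)).2.1, mem_iff_of_chart e eA (hb (sm p hp)).1]
    show 0 ≤ ε * p 2 ↔ _
    exact mul_nonneg_iff_of_pos_left hε
  · rw [(hb (sm p hp)).2.2, mem_iff_of_chart e eB (hb (sm p hp)).1]
    show ε * p 2 ≤ 0 ↔ _
    constructor
    · intro h; by_contra k; push Not at k; nlinarith [mul_pos hε k]
    · intro h; nlinarith

/-- exchange of the coordinates `i` and `2` -/
def sw (i : Fin 3) (p : V) : V := fun j => p (Equiv.swap i 2 j)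

theorem sw_sw (i : Fin 3) (p : V) : sw i (sw i p) = p := by
  ext j; simp [sw]

theorem sw_smul (i : Fin 3) (c : ℝ) (p : V) : sw i (c • p) = c • sw i p := rfl

theorem norm_sw_le (i : Fin 3) (p : V) : ‖sw i p‖ ≤ ‖p‖ :=
  (pi_norm_le_iff_of_nonneg (norm_nonneg _)).2 fun _ => norm_le_pi_norm p _

theorem pl_sw (i : Fin 3) {f : V → V} {K : Set V} (hf : PLOn f K) :
    PLOn (fun x => sw i (f x)) K := pl_pi fun _ => pl_apply hf _

/-- a PL function with slope one in the direction `d` has flat levels -/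
theorem fl_of_shear {u : V → ℝ} {x d : V} {r : ℝ} (hr : 0 < r) (hu : PLOn u (ball x r))
    (hd : d ≠ 0)
    (hs : ∀ (y : V) (s : ℝ), y ∈ ball x r → y + s • d ∈ ball x r → u (y + s • d) = u y + s) :
    Fl {y | u x ≤ u y} {y | u y ≤ u x} x := by
  obtain ⟨i, hi⟩ : ∃ i, d i ≠ 0 := by
    by_contra h
    push Not at h
    exact hd (by ext j; exact h j)
  let a : V → ℝ := fun y => u x + (d i)⁻¹ * (y i - x i)
  have ha : ∀ (y : V) (s : ℝ), a (y + s • d) = a y + s := by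
    intro y s
    simp only [a, Pi.add_apply, Pi.smul_apply, smul_eq_mul]
    field_simp
    ring
  have pa : PLOn a (ball x r) :=
    pl_add (plOn_const _ _) (pl_mul _ (pl_sub (pl_coord i _) (plOn_const _ _)))
  have ax : a x = u x := by simp [a]
  let φ : V → V := fun y => y + (u y - a y) • d
  let ψ : V → V := fun y => y + (a y - u y) • d
  have pφ : PLOn φ (ball x r) := pl_add (plOn_id _) (pl_smul_const (pl_sub hu pa) d)
  have pψ : PLOn ψ (ball x r) := pl_add (plOn_id _) (pl_smul_const (pl_sub pa hu) d)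
  have φx : φ x = x := by simp [φ, ax]
  have ψx : ψ x = x := by simp [ψ, ax]
  have uψ : ∀ z ∈ ball x r, ψ z ∈ ball x r → u (ψ z) = a z := by
    intro z h1 h2
    rw [hs z _ h1 h2]; ring
  have φψ : ∀ z ∈ ball x r, ψ z ∈ ball x r → φ (ψ z) = z := by
    intro z h1 h2
    show ψ z + (u (ψ z) - a (ψ z)) • d = z
    rw [uψ z h1 h2, ha]
    simp only [ψ]
    module
  have ψφ : ∀ z ∈ ball x r, φ z ∈ ball x r → ψ (φ z) = z := by
    intro z h1 h2
    show φ z + (a (φ z) - u (φ z)) • d = z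
    rw [hs z _ h1 h2, ha]
    simp only [φ]
    module
  have tφ : Tendsto φ (𝓝 x) (𝓝 x) := by
    have := pφ.1.continuousAt (ball_mem_nhds x hr)
    rwa [ContinuousAt, φx] at this
  have tψ : Tendsto ψ (𝓝 x) (𝓝 x) := by
    have := pψ.1.continuousAt (ball_mem_nhds x hr)
    rwa [ContinuousAt, ψx] at this
  obtain ⟨δ, hδ, hb⟩ := Metric.nhds_basis_closedBall.mem_iff.1
    (inter_mem (ball_mem_nhds x hr) (tψ (ball_mem_nhds x hr)))
  have hi' : 0 < |d i| := abs_pos.2 hi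
  set κ : ℝ := δ / |d i| * d i with hκ
  have κa : |κ| = δ := by
    rw [hκ, abs_mul, abs_div, abs_abs, abs_of_pos hδ]; field_simp
  have κ0 : κ ≠ 0 := by
    intro h; rw [h, abs_zero] at κa; exact hδ.ne κa
  have sm : ∀ p ∈ cube 3, x + κ • sw i p ∈ closedBall x δ := by
    intro p hp
    rw [mem_closedBall_zero_iff] at hp
    rw [mem_closedBall, dist_eq_norm, add_sub_cancel_left, norm_smul, Real.norm_eq_abs, κa]
    nlinarith [norm_sw_le i p]
  have val : ∀ p ∈ cube 3, u (ψ (x + κ • sw i p)) = u x + δ / |d i| * p 2 := by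
    intro p hp
    rw [uψ _ (hb (sm p hp)).1 (hb (sm p hp)).2]
    simp only [a, Pi.add_apply, Pi.smul_apply, smul_eq_mul, sw, Equiv.swap_apply_left, hκ]
    field_simp
    ring
  have pos : 0 < δ / |d i| := div_pos hδ hi'
  refine fl_of_chart (N := ball x r) (f := fun p => ψ (x + κ • sw i p))
    (g := fun y => κ⁻¹ • sw i (φ y - x))
    (pψ.comp (pl_add (plOn_const _ _) (pl_smul _ (pl_sw i (plOn_id _))))
      fun p hp => (hb (sm p hp)).1)
    (pl_smul _ (pl_sw i (pl_sub pφ (plOn_const _ _)))) (fun p hp => (hb (sm p hp)).2)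
    (fun p hp => ?_) ?_ ?_ (fun p hp => ?_) (fun p hp => ?_)
  · rw [φψ _ (hb (sm p hp)).1 (hb (sm p hp)).2, add_sub_cancel_left, sw_smul, sw_sw, smul_smul,
      inv_mul_cancel₀ κ0, one_smul]
  · have : sw i (0 : V) = 0 := rfl
    rw [this, smul_zero, add_zero, ψx]
  · filter_upwards [ball_mem_nhds x hr, tφ (closedBall_mem_nhds x hδ)] with y h1 h2
    have h3 : ‖φ y - x‖ ≤ δ := by rw [← dist_eq_norm]; exact h2
    constructor
    · rw [mem_closedBall_zero_iff, norm_smul, norm_inv, Real.norm_eq_abs, κa, inv_mul_le_iff₀ hδ]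
      linarith [norm_sw_le i (φ y - x)]
    · rw [sw_smul, sw_sw, smul_smul, mul_inv_cancel₀ κ0, one_smul, add_sub_cancel]
      exact ψφ y h1 (hb h2).1
  · show u x ≤ u (ψ (x + κ • sw i p)) ↔ _
    rw [val p hp, le_add_iff_nonneg_right]
    exact mul_nonneg_iff_of_pos_left pos
  · show u (ψ (x + κ • sw i p)) ≤ u x ↔ _
    rw [val p hp, add_le_iff_nonpos_right]
    constructor
    · intro h; by_contra k; push Not at k; nlinarith [mul_pos pos k]
    · intro h; nlinarith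

/-- the critical values of a finite family of affine functions -/
def bad (S : Finset (V →ᵃ[ℝ] ℝ)) : Set ℝ :=
  {c | ∃ I ⊆ S, I.Nonempty ∧ (∀ d : V, (∀ a ∈ I, ∀ b ∈ I, a.linear d = b.linear d) →
    ∀ a ∈ I, a.linear d = 0) ∧ ∃ x, ∀ a ∈ I, a x = c}

theorem aff_add (a : V →ᵃ[ℝ] ℝ) (y d : V) : a (y + d) = a y + a.linear d := by
  have := a.map_vadd y d
  simp only [vadd_eq_add] at this
  rw [add_comm y d, this, add_comm]

theorem bad_finite (S : Finset (V →ᵃ[ℝ] ℝ)) : (bad S).Finite := by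
  have h : ∀ I : Finset (V →ᵃ[ℝ] ℝ), Set.Subsingleton {c | I.Nonempty ∧
      (∀ d : V, (∀ a ∈ I, ∀ b ∈ I, a.linear d = b.linear d) → ∀ a ∈ I, a.linear d = 0) ∧
      ∃ x, ∀ a ∈ I, a x = c} := by
    rintro I c ⟨⟨a, ha⟩, h1, x, hx⟩ c' ⟨-, -, y, hy⟩
    have k : ∀ b ∈ I, b.linear (x - y) = c - c' := by
      intro b hb
      have := aff_add b y (x - y)
      rw [add_sub_cancel, hx b hb, hy b hb] at this
      linarith
    have := h1 (x - y) (fun b hb b' hb' => by rw [k b hb, k b' hb']) a ha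
    rw [k a ha] at this
    linarith
  refine (S.powerset.finite_toSet.biUnion fun I _ => (h I).finite).subset ?_
  rintro c ⟨I, h1, h2⟩
  exact mem_biUnion (Finset.mem_coe.2 (Finset.mem_powerset.2 h1)) h2

/-- regular values of a selection of affine functions -/
theorem fl_of_notMem_bad {u : V → ℝ} {N : Set V} {x : V} (hN : N ∈ 𝓝 x) (hc : ContinuousOn u N)
    {S : Finset (V →ᵃ[ℝ] ℝ)} (hS : ∀ y ∈ N, ∃ a ∈ S, u y = a y) (hx : u x ∉ bad S) :
    Fl {y | u x ≤ u y} {y | u y ≤ u x} x := by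
  classical
  let I := S.filter fun a => a x = u x
  have hI : I.Nonempty := by
    obtain ⟨a, ha, e⟩ := hS x (mem_of_mem_nhds hN)
    exact ⟨a, Finset.mem_filter.2 ⟨ha, e.symm⟩⟩
  obtain ⟨d, h1, a, ha, h2⟩ : ∃ d : V, (∀ a ∈ I, ∀ b ∈ I, a.linear d = b.linear d) ∧
      ∃ a ∈ I, a.linear d ≠ 0 := by
    by_contra h
    push Not at h
    exact hx ⟨I, Finset.filter_subset _ _, hI, h, x, fun a ha => (Finset.mem_filter.1 ha).2⟩
  have h3 : ∀ b ∈ I, b.linear ((a.linear d)⁻¹ • d) = 1 := by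
    intro b hb
    rw [map_smul, h1 b hb a ha, smul_eq_mul, inv_mul_cancel₀ h2]
  generalize (a.linear d)⁻¹ • d = v at h3
  have hv : v ≠ 0 := by
    intro h
    have := h3 a ha
    rw [h, map_zero] at this
    exact zero_ne_one this
  have near : ∀ᶠ y in 𝓝 x, ∀ b ∈ S, b x ≠ u x → b y ≠ u y := by
    rw [eventually_all_finset]
    intro b _
    by_cases hb : b x = u x
    · exact Eventually.of_forall fun _ h => absurd hb h
    · have k : ContinuousAt (fun y => b y - u y) x :=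
        b.continuous_of_finiteDimensional.continuousAt.sub (hc.continuousAt hN)
      exact (k.eventually_ne (sub_ne_zero.2 hb)).mono fun _ h _ => sub_ne_zero.1 h
  obtain ⟨r, hr, hb⟩ := Metric.mem_nhds_iff.1 (inter_mem hN near)
  have sel : ∀ y ∈ ball x r, ∃ b ∈ I, u y = b y := by
    intro y hy
    obtain ⟨b, h4, h5⟩ := hS y (hb hy).1
    refine ⟨b, Finset.mem_filter.2 ⟨h4, ?_⟩, h5⟩
    by_contra h6
    exact (hb hy).2 b h4 h6 h5.symm
  have cu : ContinuousOn u (ball x r) := hc.mono fun y hy => (hb hy).1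
  refine fl_of_shear hr ⟨cu, I, sel⟩ hv fun y s h4 h5 => ?_
  let J : Set ℝ := (fun s : ℝ => y + s • v) ⁻¹' ball x r
  have hJ : Convex ℝ J := by
    intro p hp q hq α β hα hβ hαβ
    have := convex_ball x r hp hq hα hβ hαβ
    show y + (α • p + β • q) • v ∈ ball x r
    have e : y + (α • p + β • q) • v = α • (y + p • v) + β • (y + q • v) := by
      have : β = 1 - α := by linarith
      rw [this]
      simp only [smul_eq_mul]
      module
    rw [e]; exact this
  have c1 : ContinuousOn (fun s : ℝ => u (y + s • v) - s) J :=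
    (cu.comp (f := fun s : ℝ => y + s • v) (by fun_prop) fun _ h => h).sub continuousOn_id
  have m1 : MapsTo (fun s : ℝ => u (y + s • v) - s) J ((fun b : V →ᵃ[ℝ] ℝ => b y) '' I) := by
    intro t ht
    obtain ⟨b, h6, h7⟩ := sel _ ht
    refine ⟨b, h6, ?_⟩
    show b y = u (y + t • v) - t
    rw [h7, aff_add, map_smul, h3 b h6]
    simp
  have := hJ.isPreconnected.constant_of_mapsTo (I.finite_toSet.image _).isDiscrete c1 m1
    (show s ∈ J from h5) (show (0 : ℝ) ∈ J by simpa [J] using h4)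
  simp only [zero_smul, add_zero, sub_zero] at this
  linarith

/-- **regular levels**: off a countable set of values the levels of a locally PL function are
flat -/
theorem exists_bad {u : V → ℝ} {Ω : Set V} (hu : LocPL u Ω) :
    ∃ T : Set ℝ, T.Countable ∧ ∀ x ∈ Ω, u x ∉ T → Fl {y | u x ≤ u y} {y | u y ≤ u x} x := by
  have h : ∀ x ∈ Ω, ∃ (r : ℝ) (S : Finset (V →ᵃ[ℝ] ℝ)), 0 < r ∧ ContinuousOn u (ball x r) ∧
      ∀ y ∈ ball x r, ∃ a ∈ S, u y = a y := by
    intro x hx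
    obtain ⟨r, hr, h1, S, h2⟩ := hu x hx
    exact ⟨r, S, hr, h1, h2⟩
  choose! r S hr h1 h2 using h
  obtain ⟨t, ht, hc, hs⟩ := TopologicalSpace.countable_cover_nhdsWithin
    (f := fun x => ball x (r x)) (s := Ω)
    fun x hx => mem_nhdsWithin_of_mem_nhds (ball_mem_nhds x (hr x hx))
  refine ⟨⋃ x ∈ t, bad (S x), hc.biUnion fun x _ => (bad_finite _).countable, fun x hx hT => ?_⟩
  obtain ⟨z, hz, hxz⟩ := mem_iUnion₂.1 (hs hx)
  exact fl_of_notMem_bad (isOpen_ball.mem_nhds hxz) (h1 z (ht hz)) (h2 z (ht hz))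
    fun k => hT (mem_biUnion hz k)

end Crest.Agent.X212.Lvf3
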